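import Vale.Agent.P096.III.Defs
import Vale.Agent.P096.III.Tensor.Alg
import Vale.Agent.P096.Iface

/-!
# P096, type III: the modules (notes/P096/LEAN_III.md)

`StmtLift` + `StmtStage` + `StmtEncode` give `StmtPinned`; with `StmtFrame`, `StmtPin` and `StmtSites` this
gives `StmtStd`; the separable reduction gives `StmtAll`, and `Linear.stmtB` the conjecture.
-/

namespace Vale.Agent.P096.III.Iface

open scoped InnerProductSpace Topology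
open Vale.Agent.P082 (Alg)
open Vale.Agent.P132 (IsCS ModData)

universe u

/-- Lift: a linear map from operators to vectors, half way between `T Ω` and `T* Ω`. -/
def StmtLift.{v} : Prop :=
  ∀ (H : Type v) [NormedAddCommGroup H] [InnerProductSpace ℂ H] [CompleteSpace H]
    (N : VonNeumannAlgebra H) (Ω : H), IsCS N Ω → ∀ D : ModData N Ω,
    ∃ L : (H →L[ℂ] H) →ₗ[ℂ] H,
      (∀ T : H →L[ℂ] H, ‖L T‖ ≤ (‖T Ω‖ + ‖star T Ω‖) / 2) ∧
      (∀ z, InCentre N z → ∀ T : H →L[ℂ] H, Commute z T → L (z * T) = z (L T)) ∧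
      (∀ k ∈ N.commutant, ∀ y ∈ N, ⟪L k, L y⟫_ℂ = ⟪k Ω, y Ω⟫_ℂ) ∧
      ∀ k₁ ∈ N.commutant, ∀ k₂ ∈ N.commutant,
        ⟪L k₁, L k₂⟫_ℂ = ⟪k₁ Ω, D.J (star k₂ Ω)⟫_ℂ

/-- Stage: for finitely many almost centralising unitaries of `M` and finitely many vectors, a
form linear in both variables that is near the identity on them (random words). -/
def StmtStage.{v} : Prop :=
  ∃ C ε₀ : ℝ, 0 ≤ C ∧ 0 < ε₀ ∧
    ∀ (H : Type v) [NormedAddCommGroup H] [InnerProductSpace ℂ H] [CompleteSpace H]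
      (M N : VonNeumannAlgebra H) (Ω : H) (F : Frame N Ω) (ε : ℝ),
      Pinned M N Ω F → 0 < ε → ε ≤ ε₀ → Near M N ε → Near M.commutant N.commutant ε →
      ∀ (DM : ModData M Ω) (S : Finset (H →L[ℂ] H)), S.Nonempty →
        (∀ u ∈ S, u ∈ M ∧ u ∈ unitary (H →L[ℂ] H)) →
      ∀ δ : ℝ, 0 ≤ δ →
        (∀ u ∈ S, ∀ z, InCentre M z → ‖z (u Ω - DM.J (star u Ω))‖ ≤ δ * ‖z Ω‖) →
      ∀ P : Finset (H →L[ℂ] H), (∀ d ∈ P, d ∈ N.commutant) →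
      ∀ n : ℕ, 0 < n → ∀ θ : ℝ, 0 < θ → θ ≤ 1 →
        ∃ Φ : Alg M →ₗ[ℂ] Alg N.commutant →ₗ[ℂ] ℂ,
          ∀ x : Alg M, (x : H →L[ℂ] H) ∈ S → ∀ d : Alg N.commutant, (d : H →L[ℂ] H) ∈ P →
            ‖Φ x (star d * d) -
                ⟪(d : H →L[ℂ] H) Ω, (x : H →L[ℂ] H) ((d : H →L[ℂ] H) Ω)⟫_ℂ‖ ≤
              C * (ε + Real.sqrt n * δ) * (‖(d : H →L[ℂ] H) Ω‖ + θ) ^ 2 +
                C * ε * Real.sqrt ((S.card : ℝ) / n) *
                  ((1 + ‖(d : H →L[ℂ] H)‖) * (1 + ‖(d : H →L[ℂ] H) Ω‖) ^ 2 / θ) + θ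

/-- Encode: a linear compression into a far site makes finitely many elements almost centralising,
and a bounded slice of that site gives them back. -/
def StmtEncode.{v} : Prop :=
  ∀ (H : Type v) [NormedAddCommGroup H] [InnerProductSpace ℂ H] [CompleteSpace H]
    (M N : VonNeumannAlgebra H) (Ω : H) (F : Frame N Ω), Pinned M N Ω F →
    ∀ (DM : ModData M Ω) (X : Finset (Alg M)), (∀ x ∈ X, IsSelfAdjoint x ∧ ‖x‖ ≤ 1) →
    ∀ P : Finset (H →L[ℂ] H), (∀ d ∈ P, d ∈ N.commutant) →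
    ∀ θ : ℝ, 0 < θ →
      ∃ (ι : Alg M →ₗ[ℂ] Alg M) (s : H →L[ℂ] H) (δ : ℝ),
        s ∈ N.commutant ∧ 0 < δ ∧ δ ≤ θ ∧ δ * ‖s‖ ≤ θ ∧
        (∀ x ∈ X, ∃ u ∈ M, u ∈ unitary (H →L[ℂ] H) ∧ (ι x : H →L[ℂ] H) = u + star u ∧
          ∀ z, InCentre M z → ‖z (u Ω - DM.J (star u Ω))‖ ≤ δ * ‖z Ω‖ ∧
            ‖z (star u Ω - DM.J (u Ω))‖ ≤ δ * ‖z Ω‖) ∧
        (∀ d ∈ P, |‖d (s Ω)‖ - ‖d Ω‖| ≤ θ) ∧
        ∀ x ∈ X, ∀ d ∈ P,
          ‖⟪d (s Ω), (ι x : H →L[ℂ] H) (d (s Ω))⟫_ℂ -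
              ⟪d Ω, (x : H →L[ℂ] H) (d Ω)⟫_ℂ‖ ≤ θ

/-- The linear map near the identity for a pinned pair. -/
def StmtPinned.{v} : Prop :=
  ∃ C ε₀ : ℝ, 0 ≤ C ∧ 0 < ε₀ ∧
    ∀ (H : Type v) [NormedAddCommGroup H] [InnerProductSpace ℂ H] [CompleteSpace H]
      (M N : VonNeumannAlgebra H) (Ω : H) (F : Frame N Ω) (ε : ℝ),
      Pinned M N Ω F → 0 < ε → ε ≤ ε₀ → Near M N ε → Near M.commutant N.commutant ε →
      NearLinear M N (C * ε)

/-- Frame: a product with a common tensor factor has the groups. -/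
def StmtFrame.{v} : Prop :=
  ∀ (H : Type v) [NormedAddCommGroup H] [InnerProductSpace ℂ H] [CompleteSpace H]
    [TopologicalSpace.SeparableSpace H] (N : VonNeumannAlgebra H) (Ω : H), IsCS N Ω →
    ∃ (κ : ℕ → Type) (_ : ∀ n, Fintype (κ n)) (_ : ∀ n, DecidableEq (κ n))
      (_ : ∀ n, Zero (κ n)) (G : ∀ n, Finset (Matrix (κ n) (κ n) ℂ)),
      Tensor.IsUGroup G ∧ TopologicalSpace.SeparableSpace (Tensor.Big κ H) ∧
        ∃ (Ω' : Tensor.Big κ H) (P : ℕ → Finset (Tensor.Big κ H →L[ℂ] Tensor.Big κ H)),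
          Grps (Tensor.tens G N) Ω' P

/-- Pin: one unitary near one moves the groups into the other algebra. -/
def StmtPin.{v} : Prop :=
  ∃ C ε₀ : ℝ, 0 ≤ C ∧ 0 < ε₀ ∧
    ∀ (H : Type v) [NormedAddCommGroup H] [InnerProductSpace ℂ H] [CompleteSpace H]
      [TopologicalSpace.SeparableSpace H] (M N : VonNeumannAlgebra H) (Ω : H)
      (G : ℕ → Finset (H →L[ℂ] H)) (ε : ℝ), Grps N Ω G → 0 < ε → ε ≤ ε₀ → Near M N ε →
      ∃ w ∈ unitary (H →L[ℂ] H), ‖w - 1‖ ≤ C * ε ∧ ∃ M₁, Conj w M M₁ ∧ Pinned0 M₁ N Ω G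

/-- Sites: weighted legs give a pinned pair with sites. -/
def StmtSites.{v} : Prop :=
  ∀ (H : Type v) [NormedAddCommGroup H] [InnerProductSpace ℂ H] [CompleteSpace H]
    (M N : VonNeumannAlgebra H) (Ω : H) (P : ℕ → Finset (H →L[ℂ] H)), Pinned0 M N Ω P →
    ∃ (κ : ℕ → Type) (_ : ∀ n, Fintype (κ n)) (_ : ∀ n, DecidableEq (κ n))
      (_ : ∀ n, Zero (κ n)) (G : ∀ n, Finset (Matrix (κ n) (κ n) ℂ)),
      Tensor.IsUGroup G ∧ ∃ (Ω' : Tensor.Big κ H) (F : Frame (Tensor.tens G N) Ω'),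
        Pinned (Tensor.tens G M) (Tensor.tens G N) Ω' F

/-- The linear map when one algebra is in standard form on a separable space. -/
def StmtStd.{v} : Prop :=
  ∃ C ε₀ : ℝ, 0 ≤ C ∧ 0 < ε₀ ∧
    ∀ (H : Type v) [NormedAddCommGroup H] [InnerProductSpace ℂ H] [CompleteSpace H]
      [TopologicalSpace.SeparableSpace H] (M N : VonNeumannAlgebra H) (Ω : H) (ε : ℝ),
      IsCS M Ω → 0 < ε → ε ≤ ε₀ → Near M N ε → NearLinear M N (C * ε)

/-- The linear map for every pair of close von Neumann algebras. -/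
def StmtAll.{v} : Prop :=
  ∃ C ε₀ : ℝ, 0 ≤ C ∧ 0 < ε₀ ∧
    ∀ (H : Type v) [NormedAddCommGroup H] [InnerProductSpace ℂ H] [CompleteSpace H]
      (M N : VonNeumannAlgebra H) (ε : ℝ),
      0 < ε → ε ≤ ε₀ → Near M N ε → NearLinear M N (C * ε)

end Vale.Agent.P096.III.Iface
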