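import Vale.Agent.P132.Iface
import Vale.Agent.P082.Iface

/-!
# P096, type III: pinned data (notes/P096/LEAN_III.md)

`Grps M Ω G`: increasing finite groups of unitaries of `M` that centralise the vector state of `Ω`
exactly and have relative commutant inside the centre. `Frame N Ω`: such groups together with far
sites, matrix copies with geometric weights `ω j k`, splitting `Ω` exactly. `Pinned M Ω F`: the
same groups and sites serve `M` for the same vector, and the centres are equal.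
-/

namespace Vale.Agent.P096.III

open scoped InnerProductSpace Topology
open Filter
open Vale.Agent.P132 (IsCS)

universe u

variable {H : Type u} [NormedAddCommGroup H] [InnerProductSpace ℂ H] [CompleteSpace H]

/-- `z` is central in `M`. -/
def InCentre (M : VonNeumannAlgebra H) (z : H →L[ℂ] H) : Prop := z ∈ M ∧ z ∈ M.commutant

/-- Finite groups of unitaries centralising the state of `Ω`, irreducible over the centre. -/
structure Grps (M : VonNeumannAlgebra H) (Ω : H) (G : ℕ → Finset (H →L[ℂ] H)) : Prop where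
  cs : IsCS M Ω
  one_mem : ∀ k, 1 ∈ G k
  mul_mem : ∀ k, ∀ g ∈ G k, ∀ h ∈ G k, g * h ∈ G k
  star_mem : ∀ k, ∀ g ∈ G k, star g ∈ G k
  unit : ∀ k, ∀ g ∈ G k, g ∈ unitary (H →L[ℂ] H)
  mono : ∀ k, G k ⊆ G (k + 1)
  mem : ∀ k, ∀ g ∈ G k, g ∈ M
  central : ∀ k, ∀ g ∈ G k, ∀ x ∈ M, ⟪Ω, g (x Ω)⟫_ℂ = ⟪Ω, x (g Ω)⟫_ℂ
  irred : ∀ x ∈ M, (∀ k, ∀ g ∈ G k, Commute g x) → x ∈ M.commutant

/-- The geometric weights of ratio `exp (-(2^(-j)))` on `2^k` levels. -/
noncomputable def weight (j k : ℕ) (a : Fin (2 ^ k)) : ℝ :=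
  Real.exp (-((a : ℕ) : ℝ) / 2 ^ j) / ∑ b : Fin (2 ^ k), Real.exp (-((b : ℕ) : ℝ) / 2 ^ j)

/-- A system of matrix units. -/
structure IsUnits {n : ℕ} (e : Fin n → Fin n → H →L[ℂ] H) : Prop where
  mul : ∀ a b c d, e a b * e c d = if b = c then e a d else 0
  star_eq : ∀ a b, star (e a b) = e b a
  sum : ∑ a, e a a = 1

/-- The sites: matrix units `e` of `M` with weights, partners `f` of the commutant. -/
structure Sites (M : VonNeumannAlgebra H) (Ω : H)
    (e f : ∀ j k : ℕ, ℕ → Fin (2 ^ k) → Fin (2 ^ k) → H →L[ℂ] H) : Prop where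
  e_units : ∀ j k r, IsUnits (e j k r)
  f_units : ∀ j k r, IsUnits (f j k r)
  e_mem : ∀ j k r a b, e j k r a b ∈ M
  f_mem : ∀ j k r a b, f j k r a b ∈ M.commutant
  rel : ∀ j k r a b,
    (Real.sqrt (weight j k a) : ℂ) • e j k r a b Ω = (Real.sqrt (weight j k b) : ℂ) • f j k r b a Ω
  away : ∀ j k a b, ∀ x ∈ M, ∀ v : H,
    Tendsto (fun r => (e j k r a b * x - x * e j k r a b) v) atTop (𝓝 0)

/-- The frame of one algebra. -/
structure Frame (N : VonNeumannAlgebra H) (Ω : H) where
  /-- the groups -/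
  G : ℕ → Finset (H →L[ℂ] H)
  /-- the matrix units of the sites -/
  e : ∀ j k : ℕ, ℕ → Fin (2 ^ k) → Fin (2 ^ k) → H →L[ℂ] H
  /-- their partners in the commutant -/
  f : ∀ j k : ℕ, ℕ → Fin (2 ^ k) → Fin (2 ^ k) → H →L[ℂ] H
  grps : Grps N Ω G
  sites : Sites N Ω e f

/-- `M` shares the frame of `N`, and its centre. -/
structure Pinned (M N : VonNeumannAlgebra H) (Ω : H) (F : Frame N Ω) : Prop where
  grps : Grps M Ω F.G
  centre : ∀ z, InCentre M z ↔ InCentre N z
  e_mem : ∀ j k r a b, F.e j k r a b ∈ M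
  f_mem : ∀ j k r a b, F.f j k r a b ∈ M.commutant

/-- Groups serving both algebras for one vector, and equal centres: the pinned pair before the
sites are added. -/
structure Pinned0 (M N : VonNeumannAlgebra H) (Ω : H) (G : ℕ → Finset (H →L[ℂ] H)) : Prop where
  left : Grps M Ω G
  right : Grps N Ω G
  centre : ∀ z, InCentre M z ↔ InCentre N z

end Vale.Agent.P096.III
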