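import Vale.Agent.P096.III.Iface
import Vale.Agent.P096.Linear.Main

/-!
# P096, type III: the standard separable case from frame, pin, sites and the pinned theorem
-/

namespace Vale.Agent.P096.III.Std

open scoped InnerProductSpace Topology
open Vale.Agent.P082 (Alg)
open Vale.Agent.P132 (IsCS)
open Tensor

universe u

variable {H : Type u} [NormedAddCommGroup H] [InnerProductSpace ℂ H] [CompleteSpace H]

theorem norm_one_le_of_unitary {w : H →L[ℂ] H} (hw : w ∈ unitary (H →L[ℂ] H)) : ‖w‖ ≤ 1 :=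
  w.opNorm_le_bound zero_le_one fun v => by
    rw [one_mul, ContinuousLinearMap.norm_map_of_mem_unitary hw]

/-- Conjugating by a unitary near one moves little. -/
theorem norm_conj_sub_le {w : H →L[ℂ] H} (hw : w ∈ unitary (H →L[ℂ] H)) (x : H →L[ℂ] H) :
    ‖star w * x * w - x‖ ≤ 2 * ‖w - 1‖ * ‖x‖ ∧ ‖w * x * star w - x‖ ≤ 2 * ‖w - 1‖ * ‖x‖ := by
  have key : ∀ a : H →L[ℂ] H, a ∈ unitary (H →L[ℂ] H) →
      ‖star a * x * a - x‖ ≤ 2 * ‖a - 1‖ * ‖x‖ := by
    intro a ha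
    have e : star a * x * a - x = (star a - 1) * x * a + x * (a - 1) := by noncomm_ring
    rw [e]
    refine (norm_add_le _ _).trans ?_
    have h1 : ‖(star a - 1) * x * a‖ ≤ ‖a - 1‖ * ‖x‖ := by
      refine ((norm_mul_le _ _).trans (mul_le_of_le_one_right (norm_nonneg _)
        (norm_one_le_of_unitary ha))).trans ((norm_mul_le _ _).trans_eq ?_)
      rw [← star_one (H →L[ℂ] H), ← star_sub, norm_star, star_one]
    have h2 : ‖x * (a - 1)‖ ≤ ‖a - 1‖ * ‖x‖ := (norm_mul_le _ _).trans_eq (mul_comm _ _)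
    linarith
  refine ⟨key w hw, ?_⟩
  have h := key (star w) (Unitary.star_mem hw)
  rwa [star_star, ← star_one (H →L[ℂ] H), ← star_sub, norm_star] at h

/-- A near linear map survives slicing off a common tensor factor. -/
theorem nearLinear_of_tens {κ : ℕ → Type} [∀ n, Fintype (κ n)] [∀ n, DecidableEq (κ n)]
    [∀ n, Zero (κ n)] {G : ∀ n, Finset (Matrix (κ n) (κ n) ℂ)} (hG : IsUGroup G)
    {M N : VonNeumannAlgebra H} {η : ℝ} (h : NearLinear (tens G M) (tens G N) η) :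
    NearLinear M N η := by
  obtain ⟨L, hL⟩ := h
  let am : Alg M → Alg (tens G M) := fun x => ⟨amp κ H (x : H →L[ℂ] H), amp_mem hG x.2⟩
  let F : Alg M →ₗ[ℂ] Alg N :=
    { toFun := fun x => ⟨blk 0 0 (L (am x) : Big κ H →L[ℂ] Big κ H), blk_mem hG (L (am x)).2 0 0⟩
      map_add' := fun x y => by
        have e : am (x + y) = am x + am y := Subtype.ext (map_add (amp κ H) _ _)
        refine Subtype.ext (ContinuousLinearMap.ext fun v => ?_)
        simp only [e, map_add]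
        rfl
      map_smul' := fun c x => by
        have e : am (c • x) = c • am x := Subtype.ext (map_smul (amp κ H) _ _)
        refine Subtype.ext (ContinuousLinearMap.ext fun v => ?_)
        simp only [e, map_smul]
        rfl }
  refine ⟨F, fun x => ?_⟩
  have e : (F x : H →L[ℂ] H) - (x : H →L[ℂ] H) =
      blk 0 0 ((L (am x) : Big κ H →L[ℂ] Big κ H) - (am x : Big κ H →L[ℂ] Big κ H)) := by
    refine ContinuousLinearMap.ext fun v => ?_
    show blk 0 0 _ v - (x : H →L[ℂ] H) v = _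
    conv_lhs => rw [← blk_amp (κ := κ) (x : H →L[ℂ] H) 0]
    rfl
  rw [e]
  refine (norm_blk_le _ _ _).trans ((hL (am x)).trans_eq ?_)
  congr 1
  exact norm_amp _

/-- A near linear map survives conjugation of the target by a unitary near one. -/
theorem nearLinear_of_conj {M N N₁ : VonNeumannAlgebra H} {w : H →L[ℂ] H}
    (hw : w ∈ unitary (H →L[ℂ] H)) (hc : Conj w N N₁) {η : ℝ} (h : NearLinear M N₁ η) :
    NearLinear M N (η + 2 * ‖w - 1‖ * (1 + η)) := by
  obtain ⟨L, hL⟩ := h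
  let F : Alg M →ₗ[ℂ] Alg N :=
    { toFun := fun x => ⟨star w * (L x : H →L[ℂ] H) * w, hc.2 _ (L x).2⟩
      map_add' := fun x y => by
        refine Subtype.ext ?_
        simp only [map_add]
        show star w * ((L x : H →L[ℂ] H) + (L y : H →L[ℂ] H)) * w = _
        rw [mul_add, add_mul]
        rfl
      map_smul' := fun c x => by
        refine Subtype.ext ?_
        simp only [map_smul]
        show star w * (c • (L x : H →L[ℂ] H)) * w = _
        rw [mul_smul_comm, smul_mul_assoc]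
        rfl }
  refine ⟨F, fun x => ?_⟩
  have h1 := (norm_conj_sub_le hw (L x : H →L[ℂ] H)).1
  have h2 := hL x
  have h3 : ‖(L x : H →L[ℂ] H)‖ ≤ (1 + η) * ‖x‖ := by
    refine (norm_le_norm_add_norm_sub' _ (x : H →L[ℂ] H)).trans ?_
    rw [add_mul, one_mul]
    exact add_le_add le_rfl h2
  refine (norm_sub_le_norm_sub_add_norm_sub _ (L x : H →L[ℂ] H) _).trans ?_
  show ‖star w * (L x : H →L[ℂ] H) * w - (L x : H →L[ℂ] H)‖ + _ ≤ _
  have h4 := mul_le_mul_of_nonneg_left h3 (show 0 ≤ 2 * ‖w - 1‖ by positivity)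
  calc ‖star w * (L x : H →L[ℂ] H) * w - (L x : H →L[ℂ] H)‖ + ‖(L x : H →L[ℂ] H) - (x : H →L[ℂ] H)‖
      ≤ 2 * ‖w - 1‖ * ((1 + η) * ‖x‖) + η * ‖x‖ := add_le_add (h1.trans h4) h2
    _ = _ := by ring

/-- Conjugating one algebra by a unitary near one keeps two algebras close. -/
theorem near_conj {M N N₁ : VonNeumannAlgebra H} {w : H →L[ℂ] H}
    (hw : w ∈ unitary (H →L[ℂ] H)) (hc : Conj w N N₁) {δ : ℝ} (h : Near M N δ) :
    Near M N₁ (δ + 2 * ‖w - 1‖) := by
  have hn : ∀ a : H →L[ℂ] H, a ∈ unitary (H →L[ℂ] H) → ∀ x : H →L[ℂ] H, ‖x‖ ≤ 1 →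
      ‖a * x * star a‖ ≤ 1 := fun a ha x hx => by
    refine (norm_mul_le _ _).trans (mul_le_one₀ ?_ (norm_nonneg _) ?_)
    · exact (norm_mul_le _ _).trans (mul_le_one₀ (norm_one_le_of_unitary ha) (norm_nonneg _) hx)
    · exact norm_one_le_of_unitary (Unitary.star_mem ha)
  refine ⟨fun x hx hx1 => ?_, fun y hy hy1 => ?_⟩
  · obtain ⟨y, hy, hy1, hxy⟩ := h.1 x hx hx1
    refine ⟨w * y * star w, hc.1 y hy, hn w hw y hy1, ?_⟩
    refine (norm_sub_le_norm_sub_add_norm_sub x y _).trans (add_le_add hxy ?_)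
    rw [norm_sub_rev]
    exact (norm_conj_sub_le hw y).2.trans (mul_le_of_le_one_right (by positivity) hy1)
  · have hz : star w * y * w ∈ N := hc.2 y hy
    have hz1 : ‖star w * y * w‖ ≤ 1 := by
      have := hn (star w) (Unitary.star_mem hw) y hy1
      rwa [star_star] at this
    obtain ⟨x, hx, hx1, hzx⟩ := h.2 _ hz hz1
    refine ⟨x, hx, hx1, ?_⟩
    refine (norm_sub_le_norm_sub_add_norm_sub y (star w * y * w) x).trans ?_
    rw [add_comm δ, norm_sub_rev]
    exact add_le_add ((norm_conj_sub_le hw y).1.trans (mul_le_of_le_one_right (by positivity) hy1)) hzx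

theorem near_symm {M N : VonNeumannAlgebra H} {δ : ℝ} (h : Near M N δ) : Near N M δ := ⟨h.2, h.1⟩

theorem near_mono {M N : VonNeumannAlgebra H} {δ δ' : ℝ} (h : Near M N δ) (hd : δ ≤ δ') :
    Near M N δ' :=
  ⟨fun x hx hx1 => (h.1 x hx hx1).imp fun y hy => ⟨hy.1, hy.2.1, hy.2.2.trans hd⟩,
    fun x hx hx1 => (h.2 x hx hx1).imp fun y hy => ⟨hy.1, hy.2.1, hy.2.2.trans hd⟩⟩

theorem stmtStd_of (hF : Iface.StmtFrame.{u}) (hP : Iface.StmtPin.{u}) (hS : Iface.StmtSites.{u})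
    (hC : Iface.StmtPinned.{u}) : Iface.StmtStd.{u} := by
  obtain ⟨T, hT, hTens⟩ := exists_near_tens.{u}
  obtain ⟨A, a₀, hA, ha₀, hPin⟩ := hP
  obtain ⟨B, b₀, hB, hb₀, hPd⟩ := hC
  obtain ⟨K, hK, hCom⟩ := Linear.exists_near_commutant.{u}
  set T₁ := T + 1
  set D := T₁ + 2 * (A * T₁) with hD
  set E := (T₁ * D) * (K + 1) + 1 with hE
  have hT₁ : 0 < T₁ := by positivity
  have hE0 : 0 < E := by positivity
  set η := B * E with hη
  refine ⟨η + 2 * (A * T₁) * (1 + η * min (a₀ / T₁) (b₀ / E)), min (a₀ / T₁) (b₀ / E), by positivity,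
    by positivity, fun H _ _ _ _ M N Ω ε hcs h0 h1 hn => ?_⟩
  have hε1 : T₁ * ε ≤ a₀ := by
    rw [mul_comm, ← le_div_iff₀ hT₁]
    exact h1.trans (min_le_left _ _)
  have hε2 : E * ε ≤ b₀ := by
    rw [mul_comm, ← le_div_iff₀ hE0]
    exact h1.trans (min_le_right _ _)
  obtain ⟨κ, i₁, i₂, i₃, G, hG, hsep, Ω', P, hgr⟩ := hF H M Ω hcs
  have hn1 : Near (tens G M) (tens G N) (T₁ * ε) :=
    near_mono (hTens κ G hG H M N ε h0.le hn)
      (mul_le_mul_of_nonneg_right (by linarith) h0.le)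
  obtain ⟨w, hw, hw1, N₁, hc, hp⟩ :=
    hPin (Big κ H) (tens G N) (tens G M) Ω' P (T₁ * ε) hgr (by positivity) hε1 (near_symm hn1)
  have hn2 : Near (tens G M) N₁ (D * ε) := by
    refine near_mono (near_conj hw hc hn1) ?_
    rw [hD]
    linarith
  obtain ⟨κ₂, j₁, j₂, j₃, G₂, hG₂, Ω₂, F, hpin⟩ :=
    hS (Big κ H) (tens G M) N₁ Ω' P ⟨hp.right, hp.left, fun z => (hp.centre z).symm⟩
  have hD0 : 0 ≤ D := by positivity
  have hn3 : Near (tens G₂ (tens G M)) (tens G₂ N₁) (T₁ * D * ε) :=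
    near_mono (hTens κ₂ G₂ hG₂ (Big κ H) _ _ _ (by positivity) hn2) (by
      rw [mul_assoc]
      exact mul_le_mul_of_nonneg_right (by linarith) (by positivity))
  have hle : T₁ * D * ε ≤ E * ε ∧ K * (T₁ * D * ε) ≤ E * ε := by
    have : 0 ≤ T₁ * D * ε := by positivity
    have : 0 ≤ K * (T₁ * D * ε) := by positivity
    have : E * ε = T₁ * D * ε + K * (T₁ * D * ε) + ε := by rw [hE]; ring
    constructor <;> linarith
  have hL := hPd (Big κ₂ (Big κ H)) _ _ Ω₂ F (E * ε) hpin (by positivity) hε2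
    (near_mono hn3 hle.1)
    (near_mono (hCom _ _ _ _ (by positivity) hn3) hle.2)
  have hL2 := nearLinear_of_tens hG (nearLinear_of_conj hw hc (nearLinear_of_tens hG₂ hL))
  obtain ⟨L, hLx⟩ := hL2
  refine ⟨L, fun x => (hLx x).trans (mul_le_mul_of_nonneg_right ?_ (norm_nonneg _))⟩
  have hw2 : ‖w - 1‖ ≤ A * T₁ * ε := hw1.trans_eq (by ring)
  have hB2 : B * (E * ε) = η * ε := by rw [hη]; ring
  rw [hB2]
  have h5 : 1 + η * ε ≤ 1 + η * min (a₀ / T₁) (b₀ / E) := by
    have := mul_le_mul_of_nonneg_left h1 (show 0 ≤ η by positivity)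
    linarith
  have h6 := mul_le_mul (mul_le_mul_of_nonneg_left hw2 zero_le_two) h5 (by positivity) (by positivity)
  calc η * ε + 2 * ‖w - 1‖ * (1 + η * ε)
      ≤ η * ε + 2 * (A * T₁ * ε) * (1 + η * min (a₀ / T₁) (b₀ / E)) := add_le_add le_rfl h6
    _ = _ := by ring

end Vale.Agent.P096.III.Std
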